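import Crest.Agent.TriH.Energy

/-!
# Mixed second differences of `Tr X^{3/2}` (real line triangular Hilbert transform, S0096)

`HH X Y = Tr (x-y)²(x+y)` with `x = X^{1/2}`, `y = Y^{1/2}`; `JJ X Y` is the Jensen gap at the midpoint.
* `HH_le_sixteen_JJ` : `H ≤ 16 J`;
* `mixed_le_HH` : the mixed second difference is `≤ (3/8) H(g₁+p₁,g₂+p₂)`;
* `HH_add_le` : `H(g₁+p₁,g₂+p₂) ≤ 2 (H(g₁,g₂)+H(p₁,p₂))`;
* `mixed_le_JJ` : the mixed second difference is `≤ 12 (J(g₁,g₂)+J(p₁,p₂))`.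
-/

namespace Crest.Agent.TriRL

open Matrix Crest.Agent.TriH
open scoped ComplexOrder

variable {𝕜 : Type*} [RCLike 𝕜] {n : Type*} [Fintype n] [DecidableEq n]

/-- `H(X,Y) = Tr (x-y)² (x+y)`. -/
noncomputable def HH (X Y : Matrix n n 𝕜) : ℝ :=
  rtr ((rt X - rt Y) * (rt X - rt Y) * (rt X + rt Y))

/-- the Jensen gap at the midpoint. -/
noncomputable def JJ (X Y : Matrix n n 𝕜) : ℝ :=
  (1 / 2) * (E32 X + E32 Y) - E32 ((1 / 2 : ℝ) • (X + Y))

omit [DecidableEq n] in
lemma sq_psd {Z : Matrix n n 𝕜} (hZ : Z.IsHermitian) : (Z * Z).PosSemidef := by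
  have := posSemidef_conjTranspose_mul_self Z
  rwa [hZ.eq] at this

lemma HH_nonneg {X Y : Matrix n n 𝕜} (hX : X.PosSemidef) (hY : Y.PosSemidef) : 0 ≤ HH X Y := by
  have hx := rt_psd hX
  have hy := rt_psd hY
  exact rtr_mul_nonneg (sq_psd (hx.1.sub hy.1)) (hx.add hy)

omit [DecidableEq n] in
/-- All the cubic words in two letters under the trace. -/
lemma rtr_words (x y : Matrix n n 𝕜) :
    rtr (x * y * x) = rtr (x * x * y) ∧ rtr (y * x * x) = rtr (x * x * y) := by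
  constructor
  · rw [rtr_cyc, rtr_cyc]
  · rw [rtr_cyc]

/-- `Tr (x-y)²(x+y) = Tr x³ + Tr y³ - Tr x²y - Tr y²x`. -/
lemma rtr_sq_sub_mul_add (x y : Matrix n n 𝕜) :
    rtr ((x - y) * (x - y) * (x + y)) =
      rtr (x * x * x) + rtr (y * y * y) - rtr (x * x * y) - rtr (y * y * x) := by
  have e : (x - y) * (x - y) * (x + y) =
      x * x * x + x * x * y - x * y * x - x * y * y - y * x * x - y * x * y + y * y * x + y * y * y := by
    noncomm_ring
  rw [e]
  simp only [rtr_add, rtr_sub]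
  have c1 := (rtr_words x y).1
  have c2 := (rtr_words x y).2
  have c3 := (rtr_words y x).1
  have c4 := (rtr_words y x).2
  rw [c1, c2, c3, c4]
  ring

/-- `H = Tr (X-Y)(x-y)`. -/
lemma HH_eq {X Y : Matrix n n 𝕜} (hX : X.PosSemidef) (hY : Y.PosSemidef) :
    HH X Y = rtr ((X - Y) * (rt X - rt Y)) := by
  rw [HH, rtr_sq_sub_mul_add]
  have e : (X - Y) * (rt X - rt Y) = X * rt X - X * rt Y - Y * rt X + Y * rt Y := by
    noncomm_ring
  rw [e]
  simp only [rtr_add, rtr_sub]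
  conv_rhs => rw [← rt_mul_self hX, ← rt_mul_self hY]
  simp only [rt_mul_self hX, rt_mul_self hY]
  ring

/-- The mixed second difference is controlled by the Jensen-type quantity `H`. -/
theorem mixed_le_HH {g₁ g₂ p₁ p₂ : Matrix n n 𝕜} (hg₁ : g₁.PosSemidef) (hg₂ : g₂.PosSemidef)
    (hp₁ : p₁.PosSemidef) (hp₂ : p₂.PosSemidef) :
    E32 (g₁ + p₁) + E32 (g₂ + p₂) - E32 (g₁ + p₂) - E32 (g₂ + p₁) ≤
      (3 / 8) * HH (g₁ + p₁) (g₂ + p₂) := by
  set A := g₁ + p₁ with hA
  set B := g₂ + p₂ with hB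
  have hApsd : A.PosSemidef := hg₁.add hp₁
  have hBpsd : B.PosSemidef := hg₂.add hp₂
  set a := rt A with ha
  set b := rt B with hb
  have hapsd : a.PosSemidef := rt_psd hApsd
  have hbpsd : b.PosSemidef := rt_psd hBpsd
  have haa : a * a = A := rt_mul_self hApsd
  have hbb : b * b = B := rt_mul_self hBpsd
  set W : Matrix n n 𝕜 := (1 / 2 : ℝ) • (a + b) with hW
  have hWpsd : W.PosSemidef := (hapsd.add hbpsd).smul (by norm_num)
  have k1 := E32_ge (hg₁.add hp₂) hWpsd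
  have k2 := E32_ge (hg₂.add hp₁) hWpsd
  -- the linear terms
  have e1 : rtr ((g₁ + p₂) * W) + rtr ((g₂ + p₁) * W) = (1 / 2) * rtr ((A + B) * (a + b)) := by
    have : (g₁ + p₂) * W + (g₂ + p₁) * W = (1 / 2 : ℝ) • ((A + B) * (a + b)) := by
      rw [hW, hA, hB, Matrix.mul_smul, Matrix.mul_smul, ← smul_add]
      congr 1
      noncomm_ring
    rw [← rtr_add, this]
    simp only [rtr, trace_smul]
    rw [RCLike.real_smul_eq_coe_mul, RCLike.re_ofReal_mul]
  have e2 : rtr (W * W * W) = (1 / 8) * rtr ((a + b) * (a + b) * (a + b)) := by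
    have : W * W * W = (1 / 8 : ℝ) • ((a + b) * (a + b) * (a + b)) := by
      rw [hW]
      simp only [Matrix.smul_mul, Matrix.mul_smul, smul_smul]
      norm_num
    rw [this]
    simp only [rtr, trace_smul]
    rw [RCLike.real_smul_eq_coe_mul, RCLike.re_ofReal_mul]
  have e3 : rtr ((A + B) * (a + b)) =
      rtr (a * a * a) + rtr (b * b * b) + rtr (a * a * b) + rtr (b * b * a) := by
    rw [← haa, ← hbb]
    have : (a * a + b * b) * (a + b) = a * a * a + a * a * b + b * b * a + b * b * b := by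
      noncomm_ring
    rw [this]
    simp only [rtr_add]
    ring
  have e4 : rtr ((a + b) * (a + b) * (a + b)) =
      rtr (a * a * a) + rtr (b * b * b) + 3 * rtr (a * a * b) + 3 * rtr (b * b * a) := by
    have : (a + b) * (a + b) * (a + b) =
        a * a * a + a * a * b + a * b * a + a * b * b + b * a * a + b * a * b + b * b * a + b * b * b := by
      noncomm_ring
    rw [this]
    simp only [rtr_add]
    rw [(rtr_words a b).1, (rtr_words a b).2, (rtr_words b a).1, (rtr_words b a).2]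
    ring
  have e5 : E32 A = rtr (a * a * a) := rfl
  have e6 : E32 B = rtr (b * b * b) := rfl
  have e7 : HH A B = rtr (a * a * a) + rtr (b * b * b) - rtr (a * a * b) - rtr (b * b * a) := by
    rw [HH, rtr_sq_sub_mul_add]
  rw [e5, e6, e7]
  have hsum := add_le_add k1 k2
  have h8 : (3 / 2 : ℝ) * rtr ((g₁ + p₂) * W) + (3 / 2) * rtr ((g₂ + p₁) * W) =
      (3 / 4) * rtr ((A + B) * (a + b)) := by
    rw [← mul_add, e1]; ring
  nlinarith

/-- Cauchy-Schwarz for the form `(z,Z) ↦ Tr s(zZ+Zz)`. -/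
lemma rtr_cs {s z Z : Matrix n n 𝕜} (hs : s.PosSemidef) (hz : z.IsHermitian) (hZ : Z.IsHermitian) :
    (rtr (s * z * Z) + rtr (s * Z * z)) ^ 2 ≤ 4 * rtr (s * z * z) * rtr (s * Z * Z) := by
  have key : ∀ t : ℝ, 0 ≤ rtr (s * Z * Z) * (t * t) + (-(rtr (s * z * Z) + rtr (s * Z * z))) * t
      + rtr (s * z * z) := by
    intro t
    have h1 : (z - t • Z).IsHermitian := hz.sub (by
      rw [IsHermitian, conjTranspose_smul, hZ.eq, star_trivial])
    have h2 := rtr_mul_nonneg hs (sq_psd h1)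
    have e : s * ((z - t • Z) * (z - t • Z)) =
        s * z * z - t • (s * z * Z) - t • (s * Z * z) + (t * t) • (s * Z * Z) := by
      simp only [sub_mul, mul_sub, Matrix.mul_smul, Matrix.smul_mul, smul_smul, Matrix.mul_assoc]
      abel
    rw [e] at h2
    simp only [rtr_add, rtr_sub, rtr, trace_smul, RCLike.real_smul_eq_coe_mul,
      RCLike.re_ofReal_mul] at h2
    simp only [rtr]
    nlinarith
  have := discrim_le_zero (K := ℝ) key
  simp only [discrim] at this
  nlinarith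

/-- Subadditivity of `√H`, in the squared form. -/
theorem HH_add_le {g₁ g₂ p₁ p₂ : Matrix n n 𝕜} (hg₁ : g₁.PosSemidef) (hg₂ : g₂.PosSemidef)
    (hp₁ : p₁.PosSemidef) (hp₂ : p₂.PosSemidef) :
    HH (g₁ + p₁) (g₂ + p₂) ≤ 2 * (HH g₁ g₂ + HH p₁ p₂) := by
  set A := g₁ + p₁ with hA
  set B := g₂ + p₂ with hB
  have hApsd : A.PosSemidef := hg₁.add hp₁
  have hBpsd : B.PosSemidef := hg₂.add hp₂
  set R₁ := rt A
  set R₂ := rt B
  have hR₁ : R₁.PosSemidef := rt_psd hApsd
  have hR₂ : R₂.PosSemidef := rt_psd hBpsd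
  set Z := R₁ - R₂ with hZdef
  have hZ : Z.IsHermitian := hR₁.1.sub hR₂.1
  set H₀ := HH A B with hH₀
  have hH₀nn : 0 ≤ H₀ := HH_nonneg hApsd hBpsd
  -- a general estimate for one of the two summands
  have main : ∀ {g g' p p' : Matrix n n 𝕜}, g.PosSemidef → g'.PosSemidef → p.PosSemidef →
      p'.PosSemidef → rt (g + p) = R₁ → rt (g' + p') = R₂ →
      (rtr ((g - g') * Z)) ^ 2 ≤ HH g g' * H₀ := by
    intro g g' p p' hg hg' hp hp' e₁ e₂
    have hr := rt_psd hg
    have hr' := rt_psd hg'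
    set r := rt g with hrdef
    set r' := rt g' with hr'def
    have hrr : r * r = g := rt_mul_self hg
    have hrr' : r' * r' = g' := rt_mul_self hg'
    set z := r - r' with hzdef
    have hz : z.IsHermitian := hr.1.sub hr'.1
    set s := r + r' with hsdef
    have hs : s.PosSemidef := hr.add hr'
    -- `r ≤ R₁`, `r' ≤ R₂`
    have h1 : (R₁ - r).PosSemidef := by
      apply le_of_sq_le hr hR₁
      have e : R₁ * R₁ = g + p := by
        rw [← e₁]; exact rt_mul_self (hg.add hp)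
      rw [e, hrr]
      simpa using hp
    have h2 : (R₂ - r').PosSemidef := by
      apply le_of_sq_le hr' hR₂
      have e : R₂ * R₂ = g' + p' := by
        rw [← e₂]; exact rt_mul_self (hg'.add hp')
      rw [e, hrr']
      simpa using hp'
    have h3 : ((R₁ + R₂) - s).PosSemidef := by
      have := h1.add h2
      have e : R₁ - r + (R₂ - r') = R₁ + R₂ - s := by rw [hsdef]; abel
      rwa [e] at this
    -- comparison
    have h4 : rtr (s * Z * Z) ≤ H₀ := by
      have h5 := rtr_mul_nonneg h3 (sq_psd hZ)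
      have e : ((R₁ + R₂) - s) * (Z * Z) = (R₁ + R₂) * Z * Z - s * Z * Z := by
        simp only [sub_mul, Matrix.mul_assoc]
      rw [e, rtr_sub] at h5
      have e2 : rtr ((R₁ + R₂) * Z * Z) = H₀ := by
        rw [hH₀, HH, rtr_cyc, Matrix.mul_assoc]
      linarith
    have h6 : rtr (s * z * z) = HH g g' := by
      rw [HH, rtr_cyc]
    -- the algebra
    have h7 : g - g' = (1 / 2 : ℝ) • (s * z + z * s) := by
      rw [← hrr, ← hrr', hsdef, hzdef]
      have : (r + r') * (r - r') + (r - r') * (r + r') = (2 : ℝ) • (r * r - r' * r') := by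
        rw [two_smul]; noncomm_ring
      rw [this, smul_smul]
      norm_num
    have h8 : rtr ((g - g') * Z) = (1 / 2) * (rtr (s * z * Z) + rtr (s * Z * z)) := by
      rw [h7, Matrix.smul_mul, add_mul]
      simp only [rtr, trace_smul, RCLike.real_smul_eq_coe_mul, RCLike.re_ofReal_mul, trace_add,
        map_add]
      have c : RCLike.re (trace (z * s * Z)) = RCLike.re (trace (s * Z * z)) := by
        have := rtr_cyc z s Z
        simpa [rtr] using this
      rw [c]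
    have h9 := rtr_cs hs hz hZ
    rw [h8, h6] at *
    have hszz : 0 ≤ HH g g' := HH_nonneg hg hg'
    have hsZZ : 0 ≤ rtr (s * Z * Z) := by
      have := rtr_mul_nonneg hs (sq_psd hZ)
      simpa only [Matrix.mul_assoc] using this
    nlinarith [mul_le_mul_of_nonneg_left h4 hszz]
  have m1 := main hg₁ hg₂ hp₁ hp₂ rfl rfl
  have m2 : (rtr ((p₁ - p₂) * Z)) ^ 2 ≤ HH p₁ p₂ * H₀ := by
    have e1 : rt (p₁ + g₁) = R₁ := by rw [add_comm]
    have e2 : rt (p₂ + g₂) = R₂ := by rw [add_comm]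
    exact main hp₁ hp₂ hg₁ hg₂ e1 e2
  have hsum : H₀ = rtr ((g₁ - g₂) * Z) + rtr ((p₁ - p₂) * Z) := by
    rw [hH₀, HH_eq hApsd hBpsd, ← rtr_add, ← add_mul]
    congr 2
    rw [hA, hB]; abel
  have hg0 : 0 ≤ HH g₁ g₂ := HH_nonneg hg₁ hg₂
  have hp0 : 0 ≤ HH p₁ p₂ := HH_nonneg hp₁ hp₂
  -- conclude from `H₀² ≤ 2 (x²+y²) ≤ 2 (Hg+Hp) H₀`
  by_cases h0 : H₀ = 0
  · rw [h0]; positivity
  · have hpos : 0 < H₀ := lt_of_le_of_ne hH₀nn (Ne.symm h0)
    have : H₀ * H₀ ≤ (2 * (HH g₁ g₂ + HH p₁ p₂)) * H₀ := by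
      nlinarith [sq_nonneg (rtr ((g₁ - g₂) * Z) - rtr ((p₁ - p₂) * Z))]
    exact le_of_mul_le_mul_right this hpos

/-- `H ≤ 16 J`. -/
theorem HH_le_sixteen_JJ {X Y : Matrix n n 𝕜} (hX : X.PosSemidef) (hY : Y.PosSemidef) :
    HH X Y ≤ 16 * JJ X Y := by
  set m : Matrix n n 𝕜 := (1 / 2 : ℝ) • (X + Y) with hm
  have hmpsd : m.PosSemidef := (hX.add hY).smul (by norm_num)
  set x := rt X with hxdef
  set y := rt Y with hydef
  set μ := rt m with hμdef
  have hx : x.PosSemidef := rt_psd hX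
  have hy : y.PosSemidef := rt_psd hY
  have hμ : μ.PosSemidef := rt_psd hmpsd
  have hxx : x * x = X := rt_mul_self hX
  have hyy : y * y = Y := rt_mul_self hY
  have hμμ : μ * μ = (1 / 2 : ℝ) • (x * x + y * y) := by
    rw [hxx, hyy]; exact rt_mul_self hmpsd
  -- exact identity for `4J`
  have i1 : rtr ((x - μ) * (x - μ) * (x + x + μ)) =
      2 * rtr (x * x * x) - 3 * rtr (x * x * μ) + rtr (μ * μ * μ) := by
    have e : (x - μ) * (x - μ) * (x + x + μ) =
        (x * x * x + x * x * x) + x * x * μ - (x * μ * x + x * μ * x) - x * μ * μ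
          - (μ * x * x + μ * x * x) - μ * x * μ + (μ * μ * x + μ * μ * x) + μ * μ * μ := by
      noncomm_ring
    rw [e]
    simp only [rtr_add, rtr_sub]
    rw [(rtr_words x μ).1, (rtr_words x μ).2, (rtr_words μ x).1, (rtr_words μ x).2]
    ring
  have i2 : rtr ((y - μ) * (y - μ) * (y + y + μ)) =
      2 * rtr (y * y * y) - 3 * rtr (y * y * μ) + rtr (μ * μ * μ) := by
    have e : (y - μ) * (y - μ) * (y + y + μ) =
        (y * y * y + y * y * y) + y * y * μ - (y * μ * y + y * μ * y) - y * μ * μ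
          - (μ * y * y + μ * y * y) - μ * y * μ + (μ * μ * y + μ * μ * y) + μ * μ * μ := by
      noncomm_ring
    rw [e]
    simp only [rtr_add, rtr_sub]
    rw [(rtr_words y μ).1, (rtr_words y μ).2, (rtr_words μ y).1, (rtr_words μ y).2]
    ring
  have i3 : rtr (μ * μ * μ) = (1 / 2) * (rtr (x * x * μ) + rtr (y * y * μ)) := by
    rw [hμμ, Matrix.smul_mul, add_mul]
    simp only [rtr, trace_smul, RCLike.real_smul_eq_coe_mul, RCLike.re_ofReal_mul, trace_add,
      map_add]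
  have hJ : JJ X Y = (1 / 2) * (rtr (x * x * x) + rtr (y * y * y)) - rtr (μ * μ * μ) := rfl
  have four_J : 4 * JJ X Y = rtr ((x - μ) * (x - μ) * (x + x + μ)) +
      rtr ((y - μ) * (y - μ) * (y + y + μ)) := by
    rw [hJ, i1, i2]; linarith
  -- lower bounds
  have hxμ : (x - μ).IsHermitian := hx.1.sub hμ.1
  have hyμ : (y - μ).IsHermitian := hy.1.sub hμ.1
  have l1 : rtr ((x - μ) * (x - μ) * μ) ≤ rtr ((x - μ) * (x - μ) * (x + x + μ)) := by
    have := rtr_mul_nonneg (sq_psd hxμ) (hx.add hx)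
    have e : (x - μ) * (x - μ) * (x + x + μ) =
        (x - μ) * (x - μ) * (x + x) + (x - μ) * (x - μ) * μ := by
      rw [Matrix.mul_add]
    rw [e, rtr_add]; linarith
  have l2 : rtr ((y - μ) * (y - μ) * μ) ≤ rtr ((y - μ) * (y - μ) * (y + y + μ)) := by
    have := rtr_mul_nonneg (sq_psd hyμ) (hy.add hy)
    have e : (y - μ) * (y - μ) * (y + y + μ) =
        (y - μ) * (y - μ) * (y + y) + (y - μ) * (y - μ) * μ := by
      rw [Matrix.mul_add]
    rw [e, rtr_add]; linarith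
  -- parallelogram
  have hxy : (x - y).IsHermitian := hx.1.sub hy.1
  have l3 : (1 / 2) * rtr ((x - y) * (x - y) * μ) ≤
      rtr ((x - μ) * (x - μ) * μ) + rtr ((y - μ) * (y - μ) * μ) := by
    have hs : (x + y - μ - μ).IsHermitian := ((hx.1.add hy.1).sub hμ.1).sub hμ.1
    have h := rtr_mul_nonneg (sq_psd hs) hμ
    have e : (x - μ) * (x - μ) * μ + (x - μ) * (x - μ) * μ + (y - μ) * (y - μ) * μ
        + (y - μ) * (y - μ) * μ =
        (x - y) * (x - y) * μ + (x + y - μ - μ) * (x + y - μ - μ) * μ := by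
      noncomm_ring
    have e2 := congrArg rtr e
    simp only [rtr_add] at e2
    linarith
  -- `μ ≥ (x+y)/2`
  have hmid : ((1 / 2 : ℝ) • (x + y)).PosSemidef := (hx.add hy).smul (by norm_num)
  have l4 : (μ - (1 / 2 : ℝ) • (x + y)).PosSemidef := by
    apply le_of_sq_le hmid hμ
    rw [hμμ]
    have e : (1 / 2 : ℝ) • (x * x + y * y) - (1 / 2 : ℝ) • (x + y) * ((1 / 2 : ℝ) • (x + y)) =
        (1 / 4 : ℝ) • ((x - y) * (x - y)) := by
      simp only [Matrix.smul_mul, Matrix.mul_smul, smul_smul, mul_add, add_mul, mul_sub, sub_mul,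
        smul_add, smul_sub]
      ext i j
      simp only [Matrix.add_apply, Matrix.sub_apply, Matrix.smul_apply,
        RCLike.real_smul_eq_coe_mul]
      push_cast
      ring
    rw [e]
    exact (sq_psd hxy).smul (by norm_num)
  have l5 : (1 / 2) * HH X Y ≤ rtr ((x - y) * (x - y) * μ) := by
    have h := rtr_mul_nonneg (sq_psd hxy) l4
    have e : (x - y) * (x - y) * (μ - (1 / 2 : ℝ) • (x + y)) =
        (x - y) * (x - y) * μ - (1 / 2 : ℝ) • ((x - y) * (x - y) * (x + y)) := by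
      rw [mul_sub, Matrix.mul_smul]
    rw [e, rtr_sub] at h
    have e2 : rtr ((1 / 2 : ℝ) • ((x - y) * (x - y) * (x + y))) = (1 / 2) * HH X Y := by
      simp only [rtr, trace_smul, RCLike.real_smul_eq_coe_mul, RCLike.re_ofReal_mul]
      rfl
    linarith
  linarith

/-- **The mixed second difference lemma.** -/
theorem mixed_le_JJ {g₁ g₂ p₁ p₂ : Matrix n n 𝕜} (hg₁ : g₁.PosSemidef) (hg₂ : g₂.PosSemidef)
    (hp₁ : p₁.PosSemidef) (hp₂ : p₂.PosSemidef) :
    E32 (g₁ + p₁) + E32 (g₂ + p₂) - E32 (g₁ + p₂) - E32 (g₂ + p₁) ≤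
      12 * (JJ g₁ g₂ + JJ p₁ p₂) := by
  have h1 := mixed_le_HH hg₁ hg₂ hp₁ hp₂
  have h2 := HH_add_le hg₁ hg₂ hp₁ hp₂
  have h3 := HH_le_sixteen_JJ hg₁ hg₂
  have h4 := HH_le_sixteen_JJ hp₁ hp₂
  linarith

/-- `E32 (c•X) = c^{3/2} E32 X`, in the form needed for `c = 2`. -/
lemma E32_two_smul {X : Matrix n n 𝕜} (hX : X.PosSemidef) :
    E32 ((2 : ℝ) • X) = 2 * √2 * E32 X := by
  have hS := rt_psd hX
  have hs2 : (0 : ℝ) ≤ √2 := Real.sqrt_nonneg 2
  have h1 : ((√2 : ℝ) • rt X).PosSemidef := hS.smul hs2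
  have h2 : (√2 : ℝ) • rt X * ((√2 : ℝ) • rt X) = (2 : ℝ) • X := by
    rw [Matrix.smul_mul, Matrix.mul_smul, smul_smul, rt_mul_self hX,
      Real.mul_self_sqrt (by norm_num)]
  rw [E32_eq_of_root h1 h2, E32]
  have e : (√2 : ℝ) • rt X * ((√2 : ℝ) • rt X) * ((√2 : ℝ) • rt X) =
      (2 * √2 : ℝ) • (rt X * rt X * rt X) := by
    simp only [Matrix.smul_mul, Matrix.mul_smul, smul_smul]
    congr 1
    rw [Real.mul_self_sqrt (by norm_num)]
    ring
  rw [e]
  simp only [rtr, trace_smul, RCLike.real_smul_eq_coe_mul, RCLike.re_ofReal_mul]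

/-- `f(X+Y) ≤ √2 (f X + f Y)`. -/
theorem E32_add_le {X Y : Matrix n n 𝕜} (hX : X.PosSemidef) (hY : Y.PosSemidef) :
    E32 (X + Y) ≤ √2 * (E32 X + E32 Y) := by
  have hp : ((X + Y) + (X - Y)).PosSemidef := by
    have e : (X + Y) + (X - Y) = (2 : ℝ) • X := by rw [two_smul]; abel
    rw [e]; exact hX.smul (by norm_num)
  have hm : ((X + Y) - (X - Y)).PosSemidef := by
    have e : (X + Y) - (X - Y) = (2 : ℝ) • Y := by rw [two_smul]; abel
    rw [e]; exact hY.smul (by norm_num)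
  have h := E32_jensen hp hm
  have e1 : (X + Y) + (X - Y) = (2 : ℝ) • X := by rw [two_smul]; abel
  have e2 : (X + Y) - (X - Y) = (2 : ℝ) • Y := by rw [two_smul]; abel
  rw [e1, e2, E32_two_smul hX, E32_two_smul hY] at h
  linarith

end Crest.Agent.TriRL
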