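/-
S0096 (helper18): the spike term of `sharp_final` in `ℓ^{3/2}(z)`.

`(∑_z (∑_k w_k |φ_z(t_k)|)^{3/2})^{2/3} ≤ (∑ w_k) ‖f‖₃ ‖g‖₃`, from Cauchy–Schwarz on each `t_k` and
Jensen in `k`.
-/
import Crest.Agent.TriRL.Chain

set_option autoImplicit false

namespace Crest.Agent.TriRL.Spike

open Finset

lemma summable_cube {f : ℤ × ℤ → ℂ} (hf : (Function.support f).Finite) :
    Summable fun z => ‖f z‖ ^ 3 := by
  apply summable_of_hasFiniteSupport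
  refine hf.subset fun z hz => ?_
  simp only [Function.mem_support] at hz ⊢
  intro h
  exact hz (by rw [h]; simp)

/-- One `t`: Cauchy–Schwarz. -/
lemma single_bound (f g : ℤ × ℤ → ℂ) (hf : (Function.support f).Finite)
    (hg : (Function.support g).Finite) (t : ℤ) :
    (Summable fun z : ℤ × ℤ => ‖phi f g z t‖ ^ ((3 : ℝ) / 2)) ∧
    ∑' z : ℤ × ℤ, ‖phi f g z t‖ ^ ((3 : ℝ) / 2) ≤
      (∑' z, ‖f z‖ ^ 3) ^ ((1 : ℝ) / 2) * (∑' z, ‖g z‖ ^ 3) ^ ((1 : ℝ) / 2) := by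
  set e₁ : ℤ × ℤ ≃ ℤ × ℤ := Equiv.prodCongr (Equiv.addRight t) (Equiv.refl ℤ) with he₁
  set e₂ : ℤ × ℤ ≃ ℤ × ℤ := Equiv.prodCongr (Equiv.refl ℤ) (Equiv.addRight t) with he₂
  have he₁' : ∀ z : ℤ × ℤ, e₁ z = (z.1 + t, z.2) := fun z => rfl
  have he₂' : ∀ z : ℤ × ℤ, e₂ z = (z.1, z.2 + t) := fun z => rfl
  set F : ℤ × ℤ → ℝ := fun z => ‖f (e₁ z)‖ ^ ((3 : ℝ) / 2) with hF
  set G : ℤ × ℤ → ℝ := fun z => ‖g (e₂ z)‖ ^ ((3 : ℝ) / 2) with hG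
  have hF0 : ∀ z, 0 ≤ F z := fun z => by positivity
  have hG0 : ∀ z, 0 ≤ G z := fun z => by positivity
  have hsq : ∀ x : ℝ, 0 ≤ x → (x ^ ((3 : ℝ) / 2)) ^ (2 : ℝ) = x ^ 3 := by
    intro x hx
    rw [← Real.rpow_mul hx]
    norm_num
  have hF2 : ∀ z, F z ^ (2 : ℝ) = ‖f (e₁ z)‖ ^ 3 := fun z => hsq _ (norm_nonneg _)
  have hG2 : ∀ z, G z ^ (2 : ℝ) = ‖g (e₂ z)‖ ^ 3 := fun z => hsq _ (norm_nonneg _)
  have hFs : Summable fun z => F z ^ (2 : ℝ) := by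
    simp_rw [hF2]
    exact (e₁.summable_iff (f := fun z => ‖f z‖ ^ 3)).mpr (summable_cube hf)
  have hGs : Summable fun z => G z ^ (2 : ℝ) := by
    simp_rw [hG2]
    exact (e₂.summable_iff (f := fun z => ‖g z‖ ^ 3)).mpr (summable_cube hg)
  have hpq : (2 : ℝ).HolderConjugate 2 := by
    constructor <;> norm_num
  obtain ⟨hs, hle⟩ := Real.summable_and_inner_le_Lp_mul_Lq_tsum_of_nonneg hpq hF0 hG0 hFs hGs
  have hphi : ∀ z, ‖phi f g z t‖ ^ ((3 : ℝ) / 2) = F z * G z := by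
    intro z
    simp only [phi, hF, hG, he₁', he₂', norm_mul]
    rw [Real.mul_rpow (norm_nonneg _) (norm_nonneg _)]
  simp_rw [hphi]
  refine ⟨hs, hle.trans (le_of_eq ?_)⟩
  simp_rw [hF2, hG2]
  have h1 : ∑' z, ‖f (e₁ z)‖ ^ 3 = ∑' z, ‖f z‖ ^ 3 := e₁.tsum_eq (fun z => ‖f z‖ ^ 3)
  have h2 : ∑' z, ‖g (e₂ z)‖ ^ 3 = ∑' z, ‖g z‖ ^ 3 := e₂.tsum_eq (fun z => ‖g z‖ ^ 3)
  rw [h1, h2]

/-- Jensen for a nonnegative finite family. -/
lemma jensen {ι : Type*} (K : Finset ι) (w a : ι → ℝ) (hw : ∀ k, 0 ≤ w k) (ha : ∀ k, 0 ≤ a k) :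
    (∑ k ∈ K, w k * a k) ^ ((3 : ℝ) / 2) ≤
      (∑ k ∈ K, w k) ^ ((1 : ℝ) / 2) * ∑ k ∈ K, w k * a k ^ ((3 : ℝ) / 2) := by
  set W := ∑ k ∈ K, w k with hW
  have hW0 : 0 ≤ W := Finset.sum_nonneg fun k _ => hw k
  rcases hW0.eq_or_lt with h0 | hpos
  · have hz : ∀ k ∈ K, w k = 0 := by
      intro k hk
      exact (Finset.sum_eq_zero_iff_of_nonneg fun k _ => hw k).mp (by rw [← hW, ← h0]) k hk
    have h1 : ∑ k ∈ K, w k * a k = 0 := Finset.sum_eq_zero fun k hk => by rw [hz k hk, zero_mul]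
    rw [h1, Real.zero_rpow (by norm_num)]
    have h2 : ∑ k ∈ K, w k * a k ^ ((3 : ℝ) / 2) = 0 :=
      Finset.sum_eq_zero fun k hk => by rw [hz k hk, zero_mul]
    rw [h2, mul_zero]
  · have hj := Real.rpow_arith_mean_le_arith_mean_rpow K (fun k => w k / W) a
      (fun k _ => div_nonneg (hw k) hW0) (by
        rw [← Finset.sum_div, ← hW]
        exact div_self hpos.ne') (fun k _ => ha k) (p := (3 : ℝ) / 2) (by norm_num)
    have e1 : ∑ k ∈ K, w k * a k = W * ∑ k ∈ K, w k / W * a k := by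
      rw [Finset.mul_sum]
      refine Finset.sum_congr rfl fun k _ => ?_
      field_simp
    have e2 : ∑ k ∈ K, w k * a k ^ ((3 : ℝ) / 2) = W * ∑ k ∈ K, w k / W * a k ^ ((3 : ℝ) / 2) := by
      rw [Finset.mul_sum]
      refine Finset.sum_congr rfl fun k _ => ?_
      field_simp
    rw [e1, e2, Real.mul_rpow hW0 (Finset.sum_nonneg fun k _ =>
      mul_nonneg (div_nonneg (hw k) hW0) (ha k))]
    have e3 : W ^ ((3 : ℝ) / 2) = W ^ ((1 : ℝ) / 2) * W := by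
      nth_rewrite 3 [← Real.rpow_one W]
      rw [← Real.rpow_add hpos]
      norm_num
    rw [e3, mul_assoc]
    apply mul_le_mul_of_nonneg_left _ (by positivity)
    exact mul_le_mul_of_nonneg_left hj hW0

/-- **The spike bound.** -/
theorem spike_bound {ι : Type*} (f g : ℤ × ℤ → ℂ) (hf : (Function.support f).Finite)
    (hg : (Function.support g).Finite) (K : Finset ι) (w : ι → ℝ) (hw : ∀ k, 0 ≤ w k)
    (t : ι → ℤ) :
    (∑' z : ℤ × ℤ, (∑ k ∈ K, w k * ‖phi f g z (t k)‖) ^ ((3 : ℝ) / 2)) ^ ((2 : ℝ) / 3) ≤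
      (∑ k ∈ K, w k) * ((∑' z, ‖f z‖ ^ 3) ^ ((1 : ℝ) / 3) * (∑' z, ‖g z‖ ^ 3) ^ ((1 : ℝ) / 3)) := by
  set A := ∑' z, ‖f z‖ ^ 3 with hA
  set B := ∑' z, ‖g z‖ ^ 3 with hB
  have hA0 : 0 ≤ A := tsum_nonneg fun z => by positivity
  have hB0 : 0 ≤ B := tsum_nonneg fun z => by positivity
  set W := ∑ k ∈ K, w k with hW
  have hW0 : 0 ≤ W := Finset.sum_nonneg fun k _ => hw k
  set X := A ^ ((1 : ℝ) / 2) * B ^ ((1 : ℝ) / 2) with hX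
  have hX0 : 0 ≤ X := by positivity
  have hsumm : ∀ k ∈ K, Summable fun z : ℤ × ℤ => w k * ‖phi f g z (t k)‖ ^ ((3 : ℝ) / 2) :=
    fun k _ => (single_bound f g hf hg (t k)).1.mul_left _
  have hS : Summable fun z : ℤ × ℤ => ∑ k ∈ K, w k * ‖phi f g z (t k)‖ ^ ((3 : ℝ) / 2) :=
    summable_sum hsumm
  have hbase : ∀ z : ℤ × ℤ, 0 ≤ (∑ k ∈ K, w k * ‖phi f g z (t k)‖) ^ ((3 : ℝ) / 2) := fun z =>
    Real.rpow_nonneg (Finset.sum_nonneg fun k _ => mul_nonneg (hw k) (norm_nonneg _)) _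
  have h1 : ∑' z : ℤ × ℤ, (∑ k ∈ K, w k * ‖phi f g z (t k)‖) ^ ((3 : ℝ) / 2) ≤
      W ^ ((1 : ℝ) / 2) * ∑' z : ℤ × ℤ, ∑ k ∈ K, w k * ‖phi f g z (t k)‖ ^ ((3 : ℝ) / 2) := by
    rw [← tsum_mul_left]
    have hle : ∀ z : ℤ × ℤ, (∑ k ∈ K, w k * ‖phi f g z (t k)‖) ^ ((3 : ℝ) / 2) ≤
        W ^ ((1 : ℝ) / 2) * ∑ k ∈ K, w k * ‖phi f g z (t k)‖ ^ ((3 : ℝ) / 2) :=
      fun z => jensen K w (fun k => ‖phi f g z (t k)‖) hw (fun k => norm_nonneg _)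
    have hS' : Summable fun z : ℤ × ℤ => (∑ k ∈ K, w k * ‖phi f g z (t k)‖) ^ ((3 : ℝ) / 2) :=
      Summable.of_nonneg_of_le hbase hle (hS.mul_left _)
    exact hS'.tsum_le_tsum hle (hS.mul_left _)
  have h2 : ∑' z : ℤ × ℤ, ∑ k ∈ K, w k * ‖phi f g z (t k)‖ ^ ((3 : ℝ) / 2) ≤ W * X := by
    rw [Summable.tsum_finsetSum hsumm, hW, Finset.sum_mul]
    refine Finset.sum_le_sum fun k _ => ?_
    rw [tsum_mul_left]
    exact mul_le_mul_of_nonneg_left (single_bound f g hf hg (t k)).2 (hw k)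
  have h3 : ∑' z : ℤ × ℤ, (∑ k ∈ K, w k * ‖phi f g z (t k)‖) ^ ((3 : ℝ) / 2) ≤
      W ^ ((3 : ℝ) / 2) * X := by
    refine h1.trans ?_
    have e3 : W ^ ((3 : ℝ) / 2) = W ^ ((1 : ℝ) / 2) * W := by
      rcases hW0.eq_or_lt with h0 | hpos
      · rw [← h0]; simp
      · nth_rewrite 3 [← Real.rpow_one W]
        rw [← Real.rpow_add hpos]
        norm_num
    rw [e3, mul_assoc]
    exact mul_le_mul_of_nonneg_left h2 (by positivity)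
  have h4 : (W ^ ((3 : ℝ) / 2) * X) ^ ((2 : ℝ) / 3) = W * (A ^ ((1 : ℝ) / 3) * B ^ ((1 : ℝ) / 3)) := by
    rw [Real.mul_rpow (by positivity) hX0, hX, Real.mul_rpow (by positivity) (by positivity),
      ← Real.rpow_mul hW0, ← Real.rpow_mul hA0, ← Real.rpow_mul hB0]
    norm_num
  rw [← h4]
  exact Real.rpow_le_rpow (tsum_nonneg hbase) h3 (by norm_num)

/-- The geometric weights. -/
lemma sum_inv_two_pow_le (kmin kmax : ℕ) :
    ∑ k ∈ Finset.Icc kmin kmax, ((2 : ℝ) ^ k)⁻¹ ≤ 2 := by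
  have h : ∀ N : ℕ, ∑ k ∈ Finset.range N, ((2 : ℝ) ^ k)⁻¹ = 2 - 2 * (2⁻¹) ^ N := by
    intro N
    induction N with
    | zero => simp
    | succ N ih =>
      rw [Finset.sum_range_succ, ih, pow_succ, inv_pow]
      field_simp
      ring
  have hsub : Finset.Icc kmin kmax ⊆ Finset.range (kmax + 1) := by
    intro k hk
    rw [Finset.mem_Icc] at hk
    rw [Finset.mem_range]
    omega
  calc ∑ k ∈ Finset.Icc kmin kmax, ((2 : ℝ) ^ k)⁻¹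
      ≤ ∑ k ∈ Finset.range (kmax + 1), ((2 : ℝ) ^ k)⁻¹ :=
        Finset.sum_le_sum_of_subset_of_nonneg hsub fun k _ _ => by positivity
    _ = 2 - 2 * (2⁻¹) ^ (kmax + 1) := h _
    _ ≤ 2 := by
        have : (0 : ℝ) ≤ 2 * (2⁻¹) ^ (kmax + 1) := by positivity
        linarith

/-- The spike term of `sharp_final` in `ℓ^{3/2}(z)`. -/
theorem spike_final (f g : ℤ × ℤ → ℂ) (hf : (Function.support f).Finite)
    (hg : (Function.support g).Finite) (kmin kmax : ℕ) :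
    (∑' z : ℤ × ℤ, (∑ k ∈ Finset.Icc kmin kmax,
        ((2 : ℝ) ^ k)⁻¹ * ‖phi f g z (-(2 : ℤ) ^ k)‖) ^ ((3 : ℝ) / 2)) ^ ((2 : ℝ) / 3) ≤
      2 * ((∑' z, ‖f z‖ ^ 3) ^ ((1 : ℝ) / 3) * (∑' z, ‖g z‖ ^ 3) ^ ((1 : ℝ) / 3)) := by
  refine (spike_bound f g hf hg (Finset.Icc kmin kmax) (fun k => ((2 : ℝ) ^ k)⁻¹)
    (fun k => by positivity) (fun k => -(2 : ℤ) ^ k)).trans ?_
  exact mul_le_mul_of_nonneg_right (sum_inv_two_pow_le kmin kmax) (by positivity)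

end Crest.Agent.TriRL.Spike
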